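import Mathlib.Geometry.Manifold.VectorBundle.CovariantDerivative.Torsion
import Mathlib.Geometry.Manifold.VectorBundle.CovariantDerivative.Metric

/-! The Levi-Civita connection, its geodesics and its exponential map. -/

namespace Vale.Agent.P231I

open scoped Manifold ContDiff Topology
open Bundle

noncomputable section

universe u v

variable (E : Type u) [NormedAddCommGroup E] [NormedSpace ℝ E]
  {M : Type v} [TopologicalSpace M] [ChartedSpace E M]

/-- the tangent space at `x` -/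
abbrev Tan (x : M) : Type u := TangentSpace 𝓘(ℝ, E) x

/-- `c` is a smooth curve. -/
def SmoothCurve (c : ℝ → M) : Prop := ContMDiff 𝓘(ℝ, ℝ) 𝓘(ℝ, E) ∞ c

/-- the velocity `c'(t)` -/
def vel (c : ℝ → M) (t : ℝ) : Tan E (c t) := mfderiv 𝓘(ℝ, ℝ) 𝓘(ℝ, E) c t (1 : ℝ)

variable {E} in
/-- `c(0) = x` and `c'(0) = v` -/
def Starts (c : ℝ → M) (x : M) (v : Tan E x) : Prop :=
  (⟨c 0, vel E c 0⟩ : TangentBundle 𝓘(ℝ, E) M) = ⟨x, v⟩

variable (M) [IsManifold 𝓘(ℝ, E) ∞ M]

/-- connections on the tangent bundle -/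
abbrev Conn : Type (max u v) := CovariantDerivative 𝓘(ℝ, E) E (Tan E : M → Type u)

/-- smooth vector fields -/
abbrev Vec : Type (max u v) := Cₛ^∞⟮𝓘(ℝ, E); E, (Tan E : M → Type u)⟯

variable {E M}

/-- The two connections have the same values on smooth vector fields. -/
def Agree (cov' cov : Conn E M) : Prop := ∀ Y : Vec E M, cov' Y = cov Y

/-- `f' Y + f ∇_(c') Y` at time `t`: the covariant derivative of `f Y` along `c` -/
def dt (cov : Conn E M) (c : ℝ → M) (f : ℝ → ℝ) (Y : Vec E M) (t : ℝ) : Tan E (c t) :=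
  deriv f t • Y (c t) + f t • cov Y (c t) (vel E c t)

/-- `w` is the acceleration `D_t c'` at time `t`: `c' = ∑ fᵢ Yᵢ` along `c` near `t`, and
`w = ∑ (fᵢ' Yᵢ + fᵢ ∇_(c') Yᵢ)`. -/
def IsAcc (cov : Conn E M) (c : ℝ → M) (t : ℝ) (w : Tan E (c t)) : Prop :=
  ∃ (k : ℕ) (Y : Fin k → Vec E M) (f : Fin k → ℝ → ℝ), (∀ i, DifferentiableAt ℝ (f i) t) ∧
    (∀ᶠ s in 𝓝 t, vel E c s = ∑ i, f i s • Y i (c s)) ∧ w = ∑ i, dt cov c (f i) (Y i) t

/-- a geodesic: a smooth curve with `D_t c' = 0` -/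
def IsGeod (cov : Conn E M) (c : ℝ → M) : Prop := SmoothCurve E c ∧ ∀ t, IsAcc cov c t 0

/-- the exponential map: `e x v = c(1)` for a geodesic `c` with `c(0) = x` and `c'(0) = v` -/
def IsExp (cov : Conn E M) (e : (x : M) → Tan E x → M) : Prop :=
  ∀ (x : M) (v : Tan E x), ∃ c : ℝ → M, IsGeod cov c ∧ Starts c x v ∧ c 1 = e x v

/-- A Levi-Civita connection: smooth, torsion free and compatible with the metric. -/
structure IsLeviCivita [FiniteDimensional ℝ E] [RiemannianBundle fun x : M => Tan E x]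
    [IsContMDiffRiemannianBundle 𝓘(ℝ, E) ∞ E fun x : M => Tan E x] (cov : Conn E M) : Prop where
  smooth : cov.ContMDiffCovariantDerivative ∞
  torsion : cov.torsion = 0
  metric : CovariantDerivative.IsMetricCompatible (V := (Tan E : M → Type u)) cov

end

end Vale.Agent.P231I
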