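import Vale.Agent.P231I69.LC
import Vale.Agent.P231W52.Geod

/-! The acceleration of a curve, and the geodesic equation in charts. -/

set_option maxSynthPendingDepth 3
set_option linter.unusedSectionVars false

namespace Vale.Agent.P231I

open scoped Manifold ContDiff Topology
open Bundle Filter VectorField IsManifold Vale.Agent.P231Iso

noncomputable section

variable {E : Type*} [NormedAddCommGroup E] [NormedSpace ℝ E] [FiniteDimensional ℝ E]
  {M : Type*} [MetricSpace M] [ChartedSpace E M] [IsManifold 𝓘(ℝ, E) ∞ M]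
  [RiemannianBundle fun x : M => Tan E x]
  [IsContMDiffRiemannianBundle 𝓘(ℝ, E) ∞ E fun x : M => Tan E x]
  {cov : Conn E M} {c : ℝ → M} {t : ℝ} {p x : M}

theorem deriv_smooth {y : ℝ → E} (h : ContDiffAt ℝ ∞ y t) : ContDiffAt ℝ 1 (deriv y) t :=
  (h.fderiv_right (m := 1) (by norm_cast)).clm_apply (contDiffAt_const (c := (1 : ℝ)))

variable (E) in
/-- the curve in the chart -/
abbrev crd (p : M) (c : ℝ → M) : ℝ → E := fun s => extChartAt 𝓘(ℝ, E) p (c s)

theorem deriv_crd (hc : SmoothCurve E c) (ht : c t ∈ (chartAt E p).source) :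
    deriv (crd E p c) t =
      (fun q : TangentBundle 𝓘(ℝ, E) M =>
        (mfderiv 𝓘(ℝ, E) 𝓘(ℝ, E) (extChartAt 𝓘(ℝ, E) p) q.1 q.2 : E)) ⟨c t, vel E c t⟩ := by
  have h1 := mfderiv_comp t (mdifferentiableAt_extChartAt (I := 𝓘(ℝ, E)) ht)
    ((hc t).mdifferentiableAt (by simp))
  rw [mfderiv_eq_fderiv] at h1
  exact DFunLike.congr_fun h1 (1 : ℝ)

theorem d_curve (hc : SmoothCurve E c) (f : SF E M) (t : ℝ) :
    HasDerivAt (fun s => f (c s)) (mvfderiv 𝓘(ℝ, E) f (c t) (vel E c t)) t := by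
  have h1 := (f.mdiff (c t)).hasMFDerivAt.comp t ((hc t).mdifferentiableAt (by simp)).hasMFDerivAt
  let L : ℝ →L[ℝ] ℝ := (mvfderiv 𝓘(ℝ, E) f (c t)).comp (mfderiv 𝓘(ℝ, ℝ) 𝓘(ℝ, E) c t)
  have h2 : HasFDerivAt (fun s => f (c s)) L t := hasMFDerivAt_iff_hasFDerivAt.1 h1
  exact h2.hasDerivAt

theorem pair (h : IsLeviCivita cov) (hc : SmoothCurve E c) (Y W : Vec E M) (t : ℝ) :
    HasDerivAt (fun s => inner ℝ (Y (c s)) (W (c s)))
      (inner ℝ (cov Y (c t) (vel E c t)) (W (c t))
        + inner ℝ (Y (c t)) (cov W (c t) (vel E c t))) t := by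
  obtain ⟨X, hX⟩ := exists_ext (E := E) (c t) (vel E c t)
  have h1 : mvfderiv 𝓘(ℝ, E) (fun y => inner ℝ (Y y) (W y)) (c t) (X (c t)) =
      inner ℝ (cov Y (c t) (X (c t))) (W (c t)) + inner ℝ (Y (c t)) (cov W (c t) (X (c t))) :=
    h.metric.mvfderiv_inner_eq X (VF.mdiff Y (c t)) (VF.mdiff W (c t))
  rw [hX] at h1
  rw [← h1]
  exact d_curve hc (gVF Y W) t

theorem IsAcc.pair (h : IsLeviCivita cov) (hc : SmoothCurve E c) {w : Tan E (c t)}
    (hw : IsAcc cov c t w) (W : Vec E M) :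
    HasDerivAt (fun s => inner ℝ (vel E c s) (W (c s)))
      (inner ℝ w (W (c t)) + inner ℝ (vel E c t) (cov W (c t) (vel E c t))) t := by
  obtain ⟨k, Y, f, hf, hv, rfl⟩ := hw
  have h1 := HasDerivAt.fun_sum (u := Finset.univ) fun i _ =>
    (hf i).hasDerivAt.fun_mul (P231I.pair h hc (Y i) W t)
  have h2 : ∀ u, inner ℝ (vel E c t) u = ∑ i, f i t * inner ℝ (Y i (c t)) u := fun u => by
    rw [hv.self_of_nhds, sum_inner]
    exact Finset.sum_congr rfl fun i _ => real_inner_smul_left _ _ _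
  refine (h1.congr_deriv ?_).congr_of_eventuallyEq ?_
  · rw [h2, sum_inner, ← Finset.sum_add_distrib]
    refine Finset.sum_congr rfl fun i _ => ?_
    rw [dt, inner_add_left, real_inner_smul_left, real_inner_smul_left]
    ring
  · filter_upwards [hv] with s hs
    rw [hs, sum_inner]
    exact Finset.sum_congr rfl fun i _ => real_inner_smul_left _ _ _

/-- the coordinate field -/
def cf (p : M) (v : E) : Field E M := pull (chartAt E p) (cst v)

theorem ld (hx : x ∈ (chartAt E p).source) :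
    IsLocalDiffeomorphAt 𝓘(ℝ, E) 𝓘(ℝ, E) ∞ (chartAt E p) x :=
  chart_ld (chart_mem_maximalAtlas p) hx

theorem sm_cf (hx : x ∈ (chartAt E p).source) (v : E) : Sm (cf p v) x :=
  Sm.pull (ld hx) (sm_cst v _)

theorem exists_cf (hx : x ∈ (chartAt E p).source) (v : E) :
    ∃ S : Vec E M, ∀ᶠ y in 𝓝 x, S y = cf p v y :=
  cut_section (E := E) ((chartAt E p).open_source.mem_nhds hx) fun _ hy =>
    (sm_cf hy v).contMDiffWithinAt

theorem inner_cf (hx : x ∈ (chartAt E p).source) (v w : E) :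
    inner ℝ (cf p v x) (cf p w x) = gc E p (chartAt E p x) v w := by
  have h : ∀ y, y = x → inner ℝ (cf p v x) (cf p w x) = inner ℝ (cf p v y) (cf p w y) := by
    rintro y rfl
    rfl
  rw [h _ ((chartAt E p).left_inv hx)]
  unfold cf
  rw [pull_cst (chart_mem_maximalAtlas p) ((chartAt E p).map_source hx),
    pull_cst (chart_mem_maximalAtlas p) ((chartAt E p).map_source hx)]
  rfl

theorem vel_cf (hc : SmoothCurve E c) (ht : c t ∈ (chartAt E p).source) :
    vel E c t = cf p (deriv (crd E p c) t) (c t) :=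
  (((inv_of_ld (ld ht)).inverse_apply_eq).2 (deriv_crd (E := E) hc ht)).symm

theorem cd_crd (hc : SmoothCurve E c) (ht : c t ∈ (chartAt E p).source) :
    ContDiffAt ℝ ∞ (crd E p c) t :=
  ((contMDiffAt_extChartAt' ht).comp t (hc t)).contDiffAt

theorem acc_exu (h : IsLeviCivita cov) (hc : SmoothCurve E c) (t : ℝ) :
    ∃! w, IsAcc cov c t w := by
  have ht := mem_chart_source E (c t)
  choose S hS using exists_cf ht
  let b := Module.finBasis ℝ E
  have hd := (deriv_smooth (cd_crd hc ht)).differentiableAt (by simp)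
  have key : ∃ w, IsAcc cov c t w := by
    refine ⟨_, _, fun i => S (b i), fun i s => b.coord i (deriv (crd E (c t) c) s),
      fun i => ((b.coord i).toContinuousLinearMap.differentiableAt.comp t hd :), ?_, rfl⟩
    filter_upwards [(hc t).continuousAt.eventually (chart_source_mem_nhds E (c t)),
      (hc t).continuousAt.eventually (eventually_all.2 fun i => hS (b i))] with s h1 h2
    let L : E →L[ℝ] Tan E (c s) := (dm E (chartAt E (c t)) (c s)).inverse
    have h3 : ∀ v, cf (c t) v (c s) = L v := fun _ => rfl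
    rw [vel_cf hc h1, h3, ← b.sum_repr (deriv (crd E (c t) c) s), map_sum]
    refine Finset.sum_congr rfl fun i _ => ?_
    rw [map_smul, h2, h3, b.sum_repr]
    rfl
  obtain ⟨w, hw⟩ := key
  refine ⟨w, hw, fun w' hw' => ext_inner_right ℝ fun u => ?_⟩
  obtain ⟨W, rfl⟩ := exists_ext (E := E) (c t) u
  exact add_right_cancel ((hw'.pair h hc W).unique (hw.pair h hc W))

/-- the metric in the chart -/
def IsMet (p : M) (G : E → E →L[ℝ] E →L[ℝ] ℝ) : Prop :=
  ∀ x ∈ (chartAt E p).source, DifferentiableAt ℝ G (chartAt E p x) ∧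
    (∀ a b, gc E p (chartAt E p x) a b = G (chartAt E p x) a b) ∧
    ∀ a b u, fderiv ℝ (fun q => gc E p q a b) (chartAt E p x) u = fderiv ℝ G (chartAt E p x) u a b

theorem exists_met (p : M) : ∃ G, IsMet (E := E) p G := by
  obtain ⟨G, hGs, hG⟩ := P234.exists_chart_metric (E := E) p
  have hO := isOpen_extChartAt_target (I := 𝓘(ℝ, E)) p
  have e1 : ∀ q ∈ (extChartAt 𝓘(ℝ, E) p).target, ∀ a b : E, gc E p q a b = G q a b :=
    fun q hq a b => by rw [hG q hq, P234.dch_eq_mfderiv p hq, P234.dch_eq_mfderiv p hq]; rfl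
  refine ⟨G, fun x hx => ?_⟩
  have hq : chartAt E p x ∈ (extChartAt 𝓘(ℝ, E) p).target :=
    (extChartAt 𝓘(ℝ, E) p).map_source (by rwa [extChartAt_source])
  have k0 := (hGs.contDiffAt (hO.mem_nhds hq)).differentiableAt (by simp)
  refine ⟨k0, e1 _ hq, fun a b u => ?_⟩
  have k2 := (k0.hasFDerivAt.clm_apply (hasFDerivAt_const a _)).clm_apply (hasFDerivAt_const b _)
  have k3 : (fun q => gc E p q a b) =ᶠ[𝓝 (chartAt E p x)] fun q => G q a b :=
    Filter.mem_of_superset (hO.mem_nhds hq) fun r hr => e1 r hr a b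
  rw [k3.fderiv_eq, k2.fderiv]
  simp

variable {G : E → E →L[ℝ] E →L[ℝ] ℝ}

theorem dg_cf (hG : IsMet p G) (hx : x ∈ (chartAt E p).source) (u v w : E) :
    dg (cf p u) (cf p v) (cf p w) x = fderiv ℝ G (chartAt E p x) u v w := by
  have hg : HasFDerivAt (fun y => G y v w)
      (((fderiv ℝ G (chartAt E p x)).flip v).flip w) (chartAt E p x) := by
    simpa using ((hG x hx).1.hasFDerivAt.clm_apply (hasFDerivAt_const v _)).clm_apply
      (hasFDerivAt_const w _)
  have h1 := hg.hasMFDerivAt.comp x ((ld hx).mdifferentiableAt (by simp)).hasMFDerivAt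
  have h2 := h1.congr_of_eventuallyEq (f₁ := fun y => inner ℝ (cf p v y) (cf p w y)) (by
    filter_upwards [(chartAt E p).open_source.mem_nhds hx] with y hy
    exact (inner_cf hy v w).trans ((hG y hy).2.1 v w))
  have h3 : dm E (chartAt E p) x (cf p u x) = u := dm_pull (ld hx) (cst u)
  unfold dg mvfderiv
  rw [h2.mfderiv]
  exact congrArg (fun a : E => fderiv ℝ G (chartAt E p x) a v w) h3

theorem cf_bracket (hx : x ∈ (chartAt E p).source) (u v : E) :
    mlieBracket 𝓘(ℝ, E) (cf p u) (cf p v) x = 0 := by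
  unfold cf
  rw [pull_bracket (ld hx) (sm_cst u _).md (sm_cst v _).md]
  have h : mlieBracket 𝓘(ℝ, E) (cst u) (cst v) (chartAt E p x) = 0 := by
    rw [← mlieBracketWithin_univ, mlieBracketWithin_eq_lieBracketWithin]
    change fderivWithin ℝ (fun _ : E => v) Set.univ (chartAt E p x) u
      - fderivWithin ℝ (fun _ : E => u) Set.univ (chartAt E p x) v = 0
    simp
  change (dm E (chartAt E p) x).inverse (mlieBracket 𝓘(ℝ, E) (cst u) (cst v) (chartAt E p x)) = 0
  rw [h, map_zero]

theorem koszul_cf (h : IsLeviCivita cov) (hG : IsMet p G) (hx : x ∈ (chartAt E p).source) (u w : E) :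
    inner ℝ (cf p u x) (cov (cf p w) x (cf p u x))
      = fderiv ℝ G (chartAt E p x) w u u / 2 := by
  rw [real_inner_comm,
    koszul h.torsion h.metric (sm_cf hx u).md (sm_cf hx w).md (sm_cf hx u).md]
  unfold kz bg
  rw [cf_bracket hx, cf_bracket hx, cf_bracket hx, inner_zero_left, inner_zero_left,
    dg_comm _ (cf p w), dg_cf hG hx, dg_cf hG hx]
  ring

theorem d_bil {y : ℝ → E} (hy : ContDiffAt ℝ ∞ y t)
    (hG : DifferentiableAt ℝ G (y t)) (w : E) : HasDerivAt (fun s => G (y s) (deriv y s) w)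
      (G (y t) (deriv (deriv y) t) w + fderiv ℝ G (y t) (deriv y t) (deriv y t) w) t := by
  have hx := (hy.differentiableAt (by simp)).hasDerivAt
  have hv := ((deriv_smooth hy).differentiableAt (by simp)).hasDerivAt
  have h := ((hG.hasFDerivAt.comp_hasDerivAt t hx).clm_apply hv).clm_apply (hasDerivAt_const t w)
  refine h.congr_deriv ?_
  simp only [add_apply, map_zero, add_zero, Function.comp_apply]
  exact add_comm _ _

theorem acc_chart (h : IsLeviCivita cov) (hc : SmoothCurve E c) {a : Tan E (c t)}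
    (ha : IsAcc cov c t a) (ht : c t ∈ (chartAt E p).source) :
    GeodEq E p (crd E p c) t ↔ ∀ w, inner ℝ a (cf p w (c t)) = 0 := by
  obtain ⟨G, hG⟩ := exists_met (E := E) p
  refine forall_congr' fun w => ?_
  obtain ⟨W, hW⟩ := exists_cf ht w
  have h1 := ha.pair h hc W
  have h2 := d_bil (G := G) (cd_crd hc ht) (hG _ ht).1 w
  have h3 : (fun s => inner ℝ (vel E c s) (W (c s)))
      =ᶠ[𝓝 t] fun s => G (crd E p c s) (deriv (crd E p c) s) w := by
    filter_upwards [(hc t).continuousAt.eventually ((chartAt E p).open_source.mem_nhds ht),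
      (hc t).continuousAt.eventually hW] with s a1 a2
    rw [vel_cf hc a1, a2, inner_cf a1, (hG _ a1).2.1]
    rfl
  have h4 : cov W (c t) = cov (cf p w) (c t) :=
    cov.isCovariantDerivativeOnUniv.congr_of_eventuallyEq (VF.mdiff W _) (sm_cf ht w).md
      univ_mem hW
  rw [h4, vel_cf hc ht, koszul_cf h hG ht, hW.self_of_nhds] at h1
  have h5 := (h2.congr_of_eventuallyEq h3).unique h1
  have h6 := (hG _ ht).2.1 (deriv (deriv (crd E p c)) t) w
  have h7 := (hG _ ht).2.2 (deriv (crd E p c) t) w (deriv (crd E p c) t)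
  have h8 := (hG _ ht).2.2 (deriv (crd E p c) t) (deriv (crd E p c) t) w
  have h9 : crd E p c t = chartAt E p (c t) := rfl
  rw [h9] at h5 ⊢
  rw [h6, h7, h8]
  constructor <;> intro h0 <;> linarith

theorem isGeod_iff (h : IsLeviCivita cov) : IsGeod cov c ↔ IsGeodesic E c := by
  refine and_congr_right fun hc => ⟨fun h0 t₀ => ?_, fun h0 t => ?_⟩
  · filter_upwards [(hc t₀).continuousAt.eventually (chart_source_mem_nhds E (c t₀))] with t ht
    exact (acc_chart h hc (h0 t) ht).2 fun w => inner_zero_left _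
  · obtain ⟨a, ha, -⟩ := acc_exu h hc t
    have ht := mem_chart_source E (c t)
    have h1 := (acc_chart h hc ha ht).1 (h0 t).self_of_nhds (dm E (chartAt E (c t)) (c t) a)
    have h2 : cf (E := E) (c t) (dm E (chartAt E (c t)) (c t) a) (c t) = a :=
      (inv_of_ld (ld ht)).inverse_apply_self a
    rw [h2, inner_self_eq_zero] at h1
    rwa [h1] at ha

theorem starts_iff {v : Tan E x} : Starts c x v ↔
    c 0 = x ∧ mfderiv 𝓘(ℝ, ℝ) 𝓘(ℝ, E) c 0 (1 : ℝ) = (v : E) :=
  ⟨fun h => ⟨congrArg TotalSpace.proj h, eq_of_heq (TotalSpace.ext_iff.1 h).2⟩,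
    fun h => TotalSpace.ext h.1 (heq_of_eq h.2)⟩

theorem isExp_iff (h : IsLeviCivita cov) {e : (x : M) → Tan E x → M} :
    IsExp cov e ↔ IsExponential e :=
  forall₂_congr fun _ _ => exists_congr fun _ => by
    rw [isGeod_iff h, starts_iff, and_assoc]

end

end Vale.Agent.P231I
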