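import Vale.Agent.P231I69.Defs
import Mathlib.Geometry.Manifold.BumpFunction
import Mathlib.Geometry.Manifold.LocalDiffeomorph
import Mathlib.Geometry.Manifold.VectorField.LieBracket
import Mathlib.Geometry.Manifold.Algebra.SmoothFunctions
import Mathlib.Analysis.InnerProductSpace.Dual

/-! Vector fields: cut-offs, pull-backs, coordinate fields. -/

set_option maxSynthPendingDepth 3
set_option linter.unusedSectionVars false

namespace Vale.Agent.P231I

open scoped Manifold ContDiff Topology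
open Bundle Filter VectorField IsManifold

noncomputable section

/-- vector fields -/
abbrev Field (E M : Type*) [NormedAddCommGroup E] [NormedSpace ℝ E] [TopologicalSpace M]
    [ChartedSpace E M] : Type _ :=
  (p : M) → TangentSpace 𝓘(ℝ, E) p

/-- smooth functions -/
abbrev SF (E M : Type*) [NormedAddCommGroup E] [NormedSpace ℝ E]
  [TopologicalSpace M] [ChartedSpace E M] : Type _ := C^∞⟮𝓘(ℝ, E), M; 𝓘(ℝ), ℝ⟯

/-- smooth vector fields -/
abbrev VF (E M : Type*) [NormedAddCommGroup E] [NormedSpace ℝ E]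
  [TopologicalSpace M] [ChartedSpace E M] [IsManifold 𝓘(ℝ, E) ∞ M] : Type _ :=
  Cₛ^∞⟮𝓘(ℝ, E); E, (TangentSpace 𝓘(ℝ, E) : M → Type _)⟯

variable {E : Type*} [NormedAddCommGroup E] [NormedSpace ℝ E] [FiniteDimensional ℝ E]
  {M : Type*} [TopologicalSpace M] [ChartedSpace E M] [IsManifold 𝓘(ℝ, E) ∞ M]
  {N : Type*} [TopologicalSpace N] [ChartedSpace E N] [IsManifold 𝓘(ℝ, E) ∞ N]

/-- directional derivative of a smooth function -/
theorem contMDiff_dir (f : SF E M) (X : VF E M) :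
    ContMDiff 𝓘(ℝ, E) 𝓘(ℝ) ∞ (fun x : M => mvfderiv 𝓘(ℝ, E) f x (X x)) := by
  have h1 : ContMDiff 𝓘(ℝ, E).tangent 𝓘(ℝ).tangent ∞ (tangentMap 𝓘(ℝ, E) 𝓘(ℝ) f) :=
    f.contMDiff.contMDiff_tangentMap (by simp)
  have h2 := h1.comp X.contMDiff
  intro x
  have h3 := h2 x
  rw [Function.comp_def] at h3
  have h4 := (contMDiffAt_totalSpace.mp h3).2
  convert! h4 using 1
  ext y
  simp only [mvfderiv, NormedSpace.fromTangentSpace, ContinuousLinearMap.comp_apply, ContinuousLinearEquiv.coe_coe, ContinuousLinearEquiv.coe_mk, tangentMap, trivializationAt_model_space_apply]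
  rfl

/-- derivative of a function along a vector field -/
def DVF (X : VF E M) (f : SF E M) : SF E M :=
  ⟨fun x => mvfderiv 𝓘(ℝ, E) f x (X x), contMDiff_dir f X⟩

theorem DVF_apply (X : VF E M) (f : SF E M) (x : M) :
    DVF X f x = mvfderiv 𝓘(ℝ, E) f x (X x) := rfl

section metric

variable [RiemannianBundle (fun x : M => TangentSpace 𝓘(ℝ, E) x)]
  [IsContMDiffRiemannianBundle 𝓘(ℝ, E) ∞ E (fun x : M => TangentSpace 𝓘(ℝ, E) x)]

/-- pointwise inner product of vector fields -/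
def gVF (X Y : VF E M) : SF E M :=
  ⟨fun x => inner ℝ (X x) (Y x), ContMDiff.inner_bundle X.contMDiff Y.contMDiff⟩

theorem gVF_apply (X Y : VF E M) (x : M) : gVF X Y x = inner ℝ (X x) (Y x) := rfl

end metric

theorem SF.mdiff (f : SF E M) (x : M) : MDifferentiableAt 𝓘(ℝ, E) 𝓘(ℝ) f x :=
  f.contMDiff.mdifferentiableAt (by simp)

theorem VF.mdiff (X : VF E M) (x : M) :
    MDifferentiableAt 𝓘(ℝ, E) (𝓘(ℝ, E).prod 𝓘(ℝ, E)) (fun x => (⟨x, X x⟩ : TangentBundle 𝓘(ℝ, E) M)) x :=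
  X.contMDiff.mdifferentiableAt (by simp)

/-- cut off a local section -/
theorem cut_section [T2Space M] {x : M} {U : Set M} (hU : U ∈ 𝓝 x) {σ : Π y : M, TangentSpace 𝓘(ℝ, E) y}
    (hσ : ContMDiffOn 𝓘(ℝ, E) (𝓘(ℝ, E).prod 𝓘(ℝ, E)) ∞
      (fun y => (⟨y, σ y⟩ : TangentBundle 𝓘(ℝ, E) M)) U) :
    ∃ X : VF E M, ∀ᶠ y in 𝓝 x, X y = σ y := by
  obtain ⟨χ, -, hχ⟩ := (SmoothBumpFunction.nhds_basis_tsupport (I := 𝓘(ℝ, E)) x).mem_iff.mp
    (interior_mem_nhds.mpr hU)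
  have hs : ContMDiff 𝓘(ℝ, E) (𝓘(ℝ, E).prod 𝓘(ℝ, E)) ∞
      (fun y => (⟨y, χ y • σ y⟩ : TangentBundle 𝓘(ℝ, E) M)) := by
    refine ContMDiffOn.smul_section_of_tsupport ?_ isOpen_interior hχ
      (hσ.mono interior_subset)
    exact χ.contMDiff.contMDiffOn
  refine ⟨⟨fun y => χ y • σ y, hs⟩, ?_⟩
  filter_upwards [χ.eventuallyEq_one] with y hy
  change χ y • σ y = σ y
  rw [hy]; simp

/-- the differential -/
abbrev dm (E : Type*) [NormedAddCommGroup E] [NormedSpace ℝ E] [ChartedSpace E M]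
    [ChartedSpace E N] (φ : N → M) (y : N) :
    TangentSpace 𝓘(ℝ, E) y →L[ℝ] TangentSpace 𝓘(ℝ, E) (φ y) :=
  mfderiv 𝓘(ℝ, E) 𝓘(ℝ, E) φ y

/-- the pullback of a field -/
abbrev pull (φ : N → M) (X : Field E M) : Field E N := mpullback 𝓘(ℝ, E) 𝓘(ℝ, E) φ X

/-- differentiable field at a point -/
abbrev Md (X : Field E M) (x : M) : Prop :=
  MDifferentiableAt 𝓘(ℝ, E) (𝓘(ℝ, E).prod 𝓘(ℝ, E))
    (fun p => (⟨p, X p⟩ : TangentBundle 𝓘(ℝ, E) M)) x

/-- smooth field at a point -/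
abbrev Sm (X : Field E M) (x : M) : Prop :=
  ContMDiffAt 𝓘(ℝ, E) (𝓘(ℝ, E).prod 𝓘(ℝ, E)) ∞
    (fun p => (⟨p, X p⟩ : TangentBundle 𝓘(ℝ, E) M)) x

theorem Sm.md {X : Field E M} {x : M} (h : Sm X x) : Md X x := h.mdifferentiableAt (by simp)

theorem inv_of_ld {f : N → M} {y : N} (h : IsLocalDiffeomorphAt 𝓘(ℝ, E) 𝓘(ℝ, E) ∞ f y) :
    (dm E f y).IsInvertible :=
  ⟨h.mfderivToContinuousLinearEquiv (by simp), rfl⟩

theorem Sm.pull {f : N → M} {y : N} (h : IsLocalDiffeomorphAt 𝓘(ℝ, E) 𝓘(ℝ, E) ∞ f y)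
    {X : Field E M} (hX : Sm X (f y)) : Sm (pull f X) y :=
  ContMDiffAt.mpullback_vectorField_preimage hX h.contMDiffAt (inv_of_ld h) (by simp)

theorem dm_pull {f : N → M} {y : N} (h : IsLocalDiffeomorphAt 𝓘(ℝ, E) 𝓘(ℝ, E) ∞ f y)
    (X : Field E M) : dm E f y (pull f X y) = X (f y) :=
  (inv_of_ld h).self_apply_inverse _

theorem pull_bracket {f : N → M} {y : N} (h : IsLocalDiffeomorphAt 𝓘(ℝ, E) 𝓘(ℝ, E) ∞ f y)
    {X Y : Field E M} (hX : Md X (f y)) (hY : Md Y (f y)) :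
    mlieBracket 𝓘(ℝ, E) (pull f X) (pull f Y) y = pull f (mlieBracket 𝓘(ℝ, E) X Y) y := by
  have : IsManifold 𝓘(ℝ, E) (minSmoothness ℝ 2) M := by
    rw [minSmoothness_of_isRCLikeNormedField]
    exact IsManifold.of_le (n := ∞) (by norm_cast)
  have : IsManifold 𝓘(ℝ, E) (minSmoothness ℝ 2) N := by
    rw [minSmoothness_of_isRCLikeNormedField]
    exact IsManifold.of_le (n := ∞) (by norm_cast)
  refine (mpullback_mlieBracket hX hY h.contMDiffAt ?_).symm
  rw [minSmoothness_of_isRCLikeNormedField]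
  norm_cast

theorem contMDiffAt_clm_of_apply {F : Type*} [NormedAddCommGroup F] [NormedSpace ℝ F]
    {f : N → E →L[ℝ] F} {y : N} (h : ∀ v, ContMDiffAt 𝓘(ℝ, E) 𝓘(ℝ, F) ∞ (fun z => f z v) y) :
    ContMDiffAt 𝓘(ℝ, E) 𝓘(ℝ, E →L[ℝ] F) ∞ f y := by
  let d := Module.finrank ℝ E
  have hd : d = Module.finrank ℝ (Fin d → ℝ) := (Module.finrank_fin_fun ℝ).symm
  let e₁ := ContinuousLinearEquiv.ofFinrankEq hd
  let e₂ := (e₁.arrowCongr (1 : F ≃L[ℝ] F)).trans (ContinuousLinearEquiv.piRing (Fin d))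
  rw [← Function.id_comp f, ← e₂.symm_comp_self]
  exact e₂.symm.contDiff.contMDiff.contMDiffAt.comp y (contMDiffAt_pi_space.mpr fun i => h _)

/-- the constant fields of the trivialization at `y` -/
theorem exists_const_field [T2Space N] (y : N) (v : E) : ∃ S : VF E N, ∀ᶠ z in 𝓝 y,
    S z = (trivializationAt E (TangentSpace 𝓘(ℝ, E) : N → Type _) y).symmL ℝ z v := by
  let e := trivializationAt E (TangentSpace 𝓘(ℝ, E) : N → Type _) y
  have hy : y ∈ e.baseSet := FiberBundle.mem_baseSet_trivializationAt' y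
  refine cut_section (E := E) (e.open_baseSet.mem_nhds hy) (σ := fun z => e.symmL ℝ z v) ?_
  rw [e.contMDiffOn_section_baseSet_iff]
  refine (contMDiffOn_const (c := v)).congr fun z hz => ?_
  have h := e.continuousLinearMapAt_symmL (R := ℝ) hz v
  rwa [e.continuousLinearMapAt_apply ℝ, e.coe_linearMapAt_of_mem hz] at h

theorem exists_ext [T2Space M] (x : M) (v : TangentSpace 𝓘(ℝ, E) x) : ∃ X : VF E M, X x = v := by
  let e := trivializationAt E (TangentSpace 𝓘(ℝ, E) : M → Type _) x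
  obtain ⟨S, hS⟩ := exists_const_field (E := E) x (e.continuousLinearMapAt ℝ x v)
  exact ⟨S, hS.self_of_nhds.trans
    (e.symmL_continuousLinearMapAt (FiberBundle.mem_baseSet_trivializationAt' x) v)⟩

variable {e : OpenPartialHomeomorph M E}

theorem mdifferentiable_chart (he : e ∈ maximalAtlas 𝓘(ℝ, E) ∞ M) :
    e.MDifferentiable 𝓘(ℝ, E) 𝓘(ℝ, E) :=
  ⟨(contMDiffOn_of_mem_maximalAtlas he).mdifferentiableOn (by simp),
    (contMDiffOn_symm_of_mem_maximalAtlas he).mdifferentiableOn (by simp)⟩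

theorem chart_ld (he : e ∈ maximalAtlas 𝓘(ℝ, E) ∞ M) {q : M} (hq : q ∈ e.source) :
    IsLocalDiffeomorphAt 𝓘(ℝ, E) 𝓘(ℝ, E) ∞ e q :=
  ⟨⟨e.toPartialEquiv, e.open_source, e.open_target, contMDiffOn_of_mem_maximalAtlas he,
    contMDiffOn_symm_of_mem_maximalAtlas he⟩, hq, Set.eqOn_refl _ _⟩

/-- constant fields on the model space -/
def cst (a : E) : Field E E := fun _ => a

theorem sm_cst (a z : E) : Sm (cst a) z :=
  ((contMDiff_vectorSpace_iff_contDiff (V := fun z : E => (a : TangentSpace 𝓘(ℝ, E) z))).2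
    contDiff_const) z

/-- the coordinate vector -/
def ds (e : OpenPartialHomeomorph M E) (z a : E) : TangentSpace 𝓘(ℝ, E) (e.symm z) :=
  mfderiv 𝓘(ℝ, E) 𝓘(ℝ, E) e.symm z a

theorem pull_cst (he : e ∈ maximalAtlas 𝓘(ℝ, E) ∞ M) {z : E} (hz : z ∈ e.target) (a : E) :
    pull e (cst a) (e.symm z) = ds e z a := by
  refine ((inv_of_ld (chart_ld he (e.map_target hz))).inverse_apply_eq).mpr ?_
  exact (congrArg (fun T => T a) ((mdifferentiable_chart he).comp_symm_deriv hz)).symm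

end

end Vale.Agent.P231I
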