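import Vale.Agent.P231I69.Kit

/-! Existence and uniqueness of the Levi-Civita connection (Koszul formula). -/

set_option maxSynthPendingDepth 3
set_option linter.unusedSectionVars false

namespace Vale.Agent.P231I

open scoped Manifold ContDiff Topology
open Bundle Filter VectorField FiberBundle

noncomputable section

variable {E : Type*} [NormedAddCommGroup E] [NormedSpace ℝ E] [FiniteDimensional ℝ E]
  {M : Type*} [TopologicalSpace M] [ChartedSpace E M] [IsManifold 𝓘(ℝ, E) ∞ M]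
  [RiemannianBundle fun p : M => TangentSpace 𝓘(ℝ, E) p]
  [IsContMDiffRiemannianBundle 𝓘(ℝ, E) ∞ E fun p : M => TangentSpace 𝓘(ℝ, E) p]

/-- derivative of the scalar product of two fields -/
def dg (X Y Z : Field E M) (x : M) : ℝ :=
  mvfderiv 𝓘(ℝ, E) (fun y => inner ℝ (Y y) (Z y)) x (X x)

/-- scalar product of a bracket with a field -/
def bg (X Y Z : Field E M) (x : M) : ℝ := inner ℝ (mlieBracket 𝓘(ℝ, E) X Y x) (Z x)

/-- the Koszul expression -/
def kz (X Y Z : Field E M) (x : M) : ℝ :=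
  (dg X Y Z x + dg Y X Z x - dg Z X Y x + bg X Y Z x - bg X Z Y x - bg Y Z X x) / 2

variable {X X' Y Y' Z Z' : Field E M} {x : M} {f : M → ℝ}

theorem md_inner (hY : Md Y x) (hZ : Md Z x) :
    MDifferentiableAt 𝓘(ℝ, E) 𝓘(ℝ) (fun y => inner ℝ (Y y) (Z y)) x :=
  MDifferentiableAt.inner_bundle (F := E) (E := fun p : M => TangentSpace 𝓘(ℝ, E) p) hY hZ

theorem dg_comm (X Y Z : Field E M) (x : M) : dg X Y Z x = dg X Z Y x := by
  unfold dg
  simp only [real_inner_comm]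

theorem dg_add1 : dg (X + X') Y Z x = dg X Y Z x + dg X' Y Z x := by
  unfold dg
  rw [Pi.add_apply, map_add]

theorem dg_smul1 : dg (f • X) Y Z x = f x * dg X Y Z x := by
  unfold dg
  rw [Pi.smul_apply', map_smul, smul_eq_mul]

theorem dg_add2 (hY : Md Y x) (hY' : Md Y' x) (hZ : Md Z x) :
    dg X (Y + Y') Z x = dg X Y Z x + dg X Y' Z x := by
  unfold dg
  have e : (fun y => inner ℝ ((Y + Y') y) (Z y))
      = (fun y => inner ℝ (Y y) (Z y)) + fun y => inner ℝ (Y' y) (Z y) := by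
    funext y
    rw [Pi.add_apply, Pi.add_apply, inner_add_left]
  rw [e, mvfderiv_add (md_inner hY hZ) (md_inner hY' hZ)]
  rfl

theorem dg_smul2 (hf : MDifferentiableAt 𝓘(ℝ, E) 𝓘(ℝ) f x) (hY : Md Y x) (hZ : Md Z x) :
    dg X (f • Y) Z x
      = f x * dg X Y Z x + mvfderiv 𝓘(ℝ, E) f x (X x) * inner ℝ (Y x) (Z x) := by
  unfold dg
  have e : (fun y => inner ℝ ((f • Y) y) (Z y)) = f * fun y => inner ℝ (Y y) (Z y) := by
    funext y
    rw [Pi.smul_apply', Pi.mul_apply, real_inner_smul_left]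
  rw [e, mvfderiv_mul hf (md_inner hY hZ)]
  simp only [add_apply, smul_apply, smul_eq_mul]
  ring

theorem bg_swap (X Y Z : Field E M) (x : M) : bg X Y Z x = -bg Y X Z x := by
  unfold bg
  rw [mlieBracket_swap_apply, inner_neg_left]

theorem bg_add3 : bg X Y (Z + Z') x = bg X Y Z x + bg X Y Z' x := by
  unfold bg
  rw [Pi.add_apply, inner_add_right]

theorem bg_smul3 : bg X Y (f • Z) x = f x * bg X Y Z x := by
  unfold bg
  rw [Pi.smul_apply', real_inner_smul_right]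

theorem bg_add2 (hY : Md Y x) (hY' : Md Y' x) :
    bg X (Y + Y') Z x = bg X Y Z x + bg X Y' Z x := by
  have : CompleteSpace E := FiniteDimensional.complete ℝ E
  unfold bg
  rw [mlieBracket_add_right hY hY', inner_add_left]

theorem bg_smul2 (hf : MDifferentiableAt 𝓘(ℝ, E) 𝓘(ℝ) f x) (hY : Md Y x) :
    bg X (f • Y) Z x
      = f x * bg X Y Z x + mvfderiv 𝓘(ℝ, E) f x (X x) * inner ℝ (Y x) (Z x) := by
  have : CompleteSpace E := FiniteDimensional.complete ℝ E
  unfold bg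
  rw [mlieBracket_smul_right hf hY, inner_add_left, real_inner_smul_left, real_inner_smul_left]
  ring

theorem kz_add1 (hX : Md X x) (hX' : Md X' x) (hY : Md Y x) (hZ : Md Z x) :
    kz (X + X') Y Z x = kz X Y Z x + kz X' Y Z x := by
  unfold kz
  rw [dg_add1, dg_add2 hX hX' hZ, dg_add2 hX hX' hY, bg_swap (X + X'), bg_add2 hX hX',
    bg_swap (X + X'), bg_add2 hX hX', bg_add3, bg_swap Y X, bg_swap Y X', bg_swap Z X,
    bg_swap Z X']
  ring

theorem kz_smul1 (hf : MDifferentiableAt 𝓘(ℝ, E) 𝓘(ℝ) f x) (hX : Md X x) (hY : Md Y x)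
    (hZ : Md Z x) : kz (f • X) Y Z x = f x * kz X Y Z x := by
  unfold kz
  rw [dg_smul1, dg_smul2 hf hX hZ, dg_smul2 hf hX hY, bg_swap (f • X), bg_smul2 hf hX,
    bg_swap (f • X), bg_smul2 hf hX, bg_smul3, bg_swap Y X, bg_swap Z X]
  ring

theorem kz_add3 (hX : Md X x) (hY : Md Y x) (hZ : Md Z x) (hZ' : Md Z' x) :
    kz X Y (Z + Z') x = kz X Y Z x + kz X Y Z' x := by
  unfold kz
  rw [dg_add1, dg_comm X Y, dg_comm Y X, dg_add2 hZ hZ' hX, dg_add2 hZ hZ' hY, bg_add3,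
    bg_add2 hZ hZ', bg_add2 hZ hZ', dg_comm X Y Z, dg_comm X Y Z', dg_comm Y X Z,
    dg_comm Y X Z']
  ring

theorem kz_smul3 (hf : MDifferentiableAt 𝓘(ℝ, E) 𝓘(ℝ) f x) (hX : Md X x) (hY : Md Y x)
    (hZ : Md Z x) : kz X Y (f • Z) x = f x * kz X Y Z x := by
  unfold kz
  rw [dg_smul1, dg_comm X Y, dg_comm Y X, dg_smul2 hf hZ hX, dg_smul2 hf hZ hY, bg_smul3,
    bg_smul2 hf hZ, bg_smul2 hf hZ, dg_comm X Y Z, dg_comm Y X Z]
  ring

theorem kz_add2 (hX : Md X x) (hY : Md Y x) (hY' : Md Y' x) (hZ : Md Z x) :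
    kz X (Y + Y') Z x = kz X Y Z x + kz X Y' Z x := by
  unfold kz
  rw [dg_add1, dg_add2 hY hY' hZ, dg_comm Z X, dg_add2 hY hY' hX, bg_add3, bg_add2 hY hY',
    bg_swap (Y + Y'), bg_add2 hY hY', bg_swap Z Y, bg_swap Z Y', dg_comm Z X Y, dg_comm Z X Y']
  ring

theorem kz_smul2 (hf : MDifferentiableAt 𝓘(ℝ, E) 𝓘(ℝ) f x) (hX : Md X x) (hY : Md Y x)
    (hZ : Md Z x) : kz X (f • Y) Z x
      = f x * kz X Y Z x + mvfderiv 𝓘(ℝ, E) f x (X x) * inner ℝ (Y x) (Z x) := by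
  unfold kz
  rw [dg_smul1, dg_smul2 hf hY hZ, dg_comm Z X, dg_smul2 hf hY hX, bg_smul3, bg_smul2 hf hY,
    bg_swap (f • Y), bg_smul2 hf hY, bg_swap Z Y, dg_comm Z X Y]
  ring

/-- the Koszul expression as a bilinear form -/
def kzB (Y : Field E M) (x : M) (hY : Md Y x) :
    TangentSpace 𝓘(ℝ, E) x →L[ℝ] TangentSpace 𝓘(ℝ, E) x →L[ℝ] ℝ :=
  TensorialAt.mkHom₂ (I := 𝓘(ℝ, E)) (F := E) (F' := E) (fun X Z : Field E M => kz X Y Z x) x
    (fun _ hZ => ⟨fun hf hX => kz_smul1 hf hX hY hZ, fun hX hX' => kz_add1 hX hX' hY hZ⟩)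
    (fun _ hX => ⟨fun hf hZ => kz_smul3 hf hX hY hZ, fun hZ hZ' => kz_add3 hX hY hZ hZ'⟩)

theorem kzB_apply (hX : Md X x) (hY : Md Y x) (hZ : Md Z x) :
    kzB Y x hY (X x) (Z x) = kz X Y Z x :=
  TensorialAt.mkHom₂_apply _ _ hX hZ

theorem complT (x : M) : CompleteSpace (TangentSpace 𝓘(ℝ, E) x) :=
  haveI : FiniteDimensional ℝ (TangentSpace 𝓘(ℝ, E) x) := inferInstanceAs (FiniteDimensional ℝ E)
  FiniteDimensional.complete ℝ _

open Classical in
/-- the Levi-Civita connection as a function -/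
def lcF (Y : Field E M) (x : M) : TangentSpace 𝓘(ℝ, E) x →L[ℝ] TangentSpace 𝓘(ℝ, E) x :=
  haveI := complT (E := E) x
  if h : Md Y x then InnerProductSpace.continuousLinearMapOfBilin (𝕜 := ℝ) (kzB Y x h) else 0

theorem inner_lcF (hX : Md X x) (hY : Md Y x) (hZ : Md Z x) :
    inner ℝ (lcF Y x (X x)) (Z x) = kz X Y Z x := by
  have := complT (E := E) x
  unfold lcF
  rw [dif_pos hY, ← kzB_apply hX hY hZ]
  exact InnerProductSpace.continuousLinearMapOfBilin_apply _ _ _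

theorem ext_md {A B : TangentSpace 𝓘(ℝ, E) x →L[ℝ] TangentSpace 𝓘(ℝ, E) x}
    (h : ∀ X Z : Field E M, Md X x → Md Z x →
      inner ℝ (A (X x)) (Z x) = inner ℝ (B (X x)) (Z x)) : A = B := by
  ext v
  refine ext_inner_right ℝ fun w => ?_
  have h1 := h (extend E v) (extend E w) (mdifferentiableAt_extend ..)
    (mdifferentiableAt_extend ..)
  rwa [extend_apply_self, extend_apply_self] at h1

/-- the Levi-Civita connection -/
def lc : CovariantDerivative 𝓘(ℝ, E) E (TangentSpace 𝓘(ℝ, E) : M → Type _) where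
  toFun := lcF
  isCovariantDerivativeOnUniv :=
    { add := fun {σ σ' y} hσ hσ' _ => ext_md fun X Z hX hZ => by
        rw [add_apply, inner_add_left,
          inner_lcF hX (mdifferentiableAt_add_section hσ hσ') hZ, inner_lcF hX hσ hZ,
          inner_lcF hX hσ' hZ, kz_add2 hX hσ hσ' hZ]
      leibniz := fun {σ g y} hσ hg _ => ext_md fun X Z hX hZ => by
        rw [add_apply, inner_add_left, smul_apply,
          real_inner_smul_left, ContinuousLinearMap.smulRight_apply, real_inner_smul_left,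
          inner_lcF hX (hg.smul_section hσ) hZ, inner_lcF hX hσ hZ, kz_smul2 hg hX hσ hZ] }

theorem inner_lc (hX : Md X x) (hY : Md Y x) (hZ : Md Z x) :
    inner ℝ (lc Y x (X x)) (Z x) = kz X Y Z x := inner_lcF hX hY hZ

theorem lc_torsion : (lc (E := E) (M := M)).torsion = 0 := by
  rw [CovariantDerivative.torsion_eq_zero_iff]
  intro X Y x hX hY
  refine ext_inner_right ℝ fun w => ?_
  have hZ : Md (extend E w) x := mdifferentiableAt_extend ..
  have h1 := inner_lc hX hY hZ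
  have h2 := inner_lc hY hX hZ
  have h3 : bg X Y (extend E w) x = inner ℝ (mlieBracket 𝓘(ℝ, E) X Y x) w := by
    unfold bg
    rw [extend_apply_self]
  rw [extend_apply_self] at h1 h2
  rw [inner_sub_left, h1, h2, ← h3]
  unfold kz
  rw [bg_swap Y X, dg_comm _ Y X]
  ring

theorem lc_metric : CovariantDerivative.IsMetricCompatible
    (V := (TangentSpace 𝓘(ℝ, E) : M → Type _)) (lc (E := E) (M := M)) := by
  rw [CovariantDerivative.isMetricCompatible_iff]
  intro x X Y Z hX hY hZ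
  change dg X Y Z x = inner ℝ (lc Y x (X x)) (Z x) + inner ℝ (Y x) (lc Z x (X x))
  rw [real_inner_comm _ (Y x), inner_lc hX hY hZ, inner_lc hX hZ hY]
  unfold kz
  rw [bg_swap Z Y, dg_comm X Z Y]
  ring

/-- Koszul formula for a torsion free metric connection -/
theorem koszul {cov : CovariantDerivative 𝓘(ℝ, E) E (TangentSpace 𝓘(ℝ, E) : M → Type _)}
    (ht : cov.torsion = 0)
    (hm : CovariantDerivative.IsMetricCompatible (V := (TangentSpace 𝓘(ℝ, E) : M → Type _)) cov)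
    (hX : Md X x) (hY : Md Y x) (hZ : Md Z x) :
    inner ℝ (cov Y x (X x)) (Z x) = kz X Y Z x := by
  rw [CovariantDerivative.torsion_eq_zero_iff] at ht
  have h1 : dg X Y Z x = inner ℝ (cov Y x (X x)) (Z x) + inner ℝ (Y x) (cov Z x (X x)) :=
    hm.mvfderiv_inner_eq X hY hZ
  have h2 : dg Y X Z x = inner ℝ (cov X x (Y x)) (Z x) + inner ℝ (X x) (cov Z x (Y x)) :=
    hm.mvfderiv_inner_eq Y hX hZ
  have h3 : dg Z X Y x = inner ℝ (cov X x (Z x)) (Y x) + inner ℝ (X x) (cov Y x (Z x)) :=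
    hm.mvfderiv_inner_eq Z hX hY
  unfold kz bg
  rw [h1, h2, h3, ← ht hX hY, ← ht hX hZ, ← ht hY hZ, inner_sub_left, inner_sub_left,
    inner_sub_left, real_inner_comm _ (Y x), real_inner_comm _ (X x), real_inner_comm _ (X x)]
  ring

theorem lc_unique {cov cov' : CovariantDerivative 𝓘(ℝ, E) E (TangentSpace 𝓘(ℝ, E) : M → Type _)}
    (h : IsLeviCivita cov) (h' : IsLeviCivita cov') (hY : Md Y x) : cov Y x = cov' Y x :=
  ext_md fun _ _ hX hZ => by
    rw [koszul h.torsion h.metric hX hY hZ, koszul h'.torsion h'.metric hX hY hZ]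

/-- the Koszul expression of smooth fields is smooth -/
theorem kz_smooth (X Y Z : VF E M) : ContMDiff 𝓘(ℝ, E) 𝓘(ℝ) ∞ (kz X Y Z) := by
  have : CompleteSpace E := FiniteDimensional.complete ℝ E
  have : IsManifold 𝓘(ℝ, E) (minSmoothness ℝ 2) M := by
    rw [minSmoothness_of_isRCLikeNormedField]
    exact IsManifold.of_le (n := ∞) (by norm_cast)
  have : IsManifold 𝓘(ℝ, E) (((⊤ : ℕ∞) : ℕ∞ω) + 1) M := IsManifold.of_le (n := ∞) (by simp)
  have hd : ∀ A B C : VF E M, ContMDiff 𝓘(ℝ, E) 𝓘(ℝ) ∞ (dg A B C) :=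
    fun A B C => (DVF A (gVF B C)).contMDiff
  have hb : ∀ A B C : VF E M, ContMDiff 𝓘(ℝ, E) 𝓘(ℝ) ∞ (bg A B C) := by
    intro A B C y
    have h1 : Sm (mlieBracket 𝓘(ℝ, E) A B) y :=
      ContMDiffAt.mlieBracket_vectorField (m := ⊤) (n := ⊤) (A.contMDiff y) (B.contMDiff y)
        (by simp)
    exact ContMDiffAt.inner_bundle (F := E) (E := fun p : M => TangentSpace 𝓘(ℝ, E) p) h1
      (C.contMDiff y)
  have h := ((((((hd X Y Z).add (hd Y X Z)).sub (hd Z X Y)).add (hb X Y Z)).sub (hb X Z Y)).sub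
    (hb Y Z X)).mul (contMDiff_const (c := (2 : ℝ)⁻¹))
  exact h.congr fun y => by simp only [kz, div_eq_mul_inv, Pi.mul_apply, Pi.add_apply]

/-- a field whose scalar products with smooth fields are smooth is smooth -/
theorem sm_of_inner [T2Space M] {V : Field E M} {y : M}
    (h : ∀ T : VF E M, ContMDiffAt 𝓘(ℝ, E) 𝓘(ℝ) ∞ (fun z => inner ℝ (V z) (T z)) y) :
    ContMDiffAt 𝓘(ℝ, E) 𝓘(ℝ, E) ∞ (fun z =>
      (trivializationAt E (TangentSpace 𝓘(ℝ, E) : M → Type _) y).continuousLinearMapAt ℝ z (V z))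
      y := by
  have : CompleteSpace E := FiniteDimensional.complete ℝ E
  let e := trivializationAt E (TangentSpace 𝓘(ℝ, E) : M → Type _) y
  have hy : e.baseSet ∈ 𝓝 y := e.open_baseSet.mem_nhds (mem_baseSet_trivializationAt' y)
  choose S hS using fun v : E => exists_const_field (E := E) y v
  let G : M → E →L[ℝ] E →L[ℝ] ℝ := fun z =>
    ((e.symmL ℝ z).precomp ℝ).comp ((innerSL ℝ (E := TangentSpace 𝓘(ℝ, E) z)).comp (e.symmL ℝ z))
  have hG : ∀ z a b, G z a b = inner ℝ (e.symmL ℝ z a) (e.symmL ℝ z b) := fun _ _ _ => rfl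
  let A : M → E →L[ℝ] ℝ := fun z =>
    (innerSL ℝ (E := TangentSpace 𝓘(ℝ, E) z) (V z)).comp (e.symmL ℝ z)
  have hA : ∀ z b, A z b = inner ℝ (V z) (e.symmL ℝ z b) := fun _ _ => rfl
  have sG : ContMDiffAt 𝓘(ℝ, E) 𝓘(ℝ, E →L[ℝ] E →L[ℝ] ℝ) ∞ G y := by
    refine contMDiffAt_clm_of_apply fun a => contMDiffAt_clm_of_apply fun b => ?_
    refine ((gVF (S a) (S b)).contMDiff y).congr_of_eventuallyEq ?_
    filter_upwards [hS a, hS b] with z h1 h2
    rw [hG, gVF_apply, h1, h2]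
  have sA : ContMDiffAt 𝓘(ℝ, E) 𝓘(ℝ, E →L[ℝ] ℝ) ∞ A y := by
    refine contMDiffAt_clm_of_apply fun b => ?_
    refine (h (S b)).congr_of_eventuallyEq ?_
    filter_upwards [hS b] with z h1
    rw [hA, h1]
  have hinv : ∀ z ∈ e.baseSet, (G z).IsInvertible := by
    intro z hz
    have hinj : Function.Injective (G z) := by
      rw [injective_iff_map_eq_zero]
      intro a ha
      have h1 : inner ℝ (e.symmL ℝ z a) (e.symmL ℝ z a) = 0 := by rw [← hG, ha]; rfl
      rw [← e.continuousLinearMapAt_symmL (R := ℝ) hz a, inner_self_eq_zero.1 h1, map_zero]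
    have hfr : Module.finrank ℝ E = Module.finrank ℝ (E →L[ℝ] ℝ) := by
      rw [← (LinearMap.toContinuousLinearMap (𝕜 := ℝ) (E := E) (F' := ℝ)).finrank_eq]
      exact (Subspace.dual_finrank_eq (K := ℝ) (V := E)).symm
    exact ⟨(LinearEquiv.ofInjectiveOfFinrankEq (G z).toLinearMap hinj hfr).toContinuousLinearEquiv,
      by ext; rfl⟩
  have sI : ContMDiffAt 𝓘(ℝ, E) 𝓘(ℝ, (E →L[ℝ] ℝ) →L[ℝ] E) ∞ (fun z => (G z).inverse) y :=
    ((hinv y (mem_of_mem_nhds hy)).contDiffAt_map_inverse (n := ∞)).contMDiffAt.comp y sG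
  refine (sI.clm_apply sA).congr_of_eventuallyEq ?_
  filter_upwards [hy] with z hz
  refine (((hinv z hz).inverse_apply_eq).mpr ?_).symm
  ext b
  rw [hA, hG, e.symmL_continuousLinearMapAt hz]

theorem lc_smooth [T2Space M] : (lc (E := E) (M := M)).ContMDiffCovariantDerivative ∞ := by
  refine ⟨⟨fun {σ} hσ y _ => ContMDiffAt.contMDiffWithinAt ?_⟩⟩
  let Y : VF E M := ⟨σ, fun z => ((hσ z (Set.mem_univ z)).contMDiffAt univ_mem).of_le (by simp)⟩
  rw [contMDiffAt_hom_bundle]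
  refine ⟨contMDiffAt_id, contMDiffAt_clm_of_apply fun v => ?_⟩
  obtain ⟨S, hS⟩ := exists_const_field (E := E) y v
  have h1 := sm_of_inner (V := fun z => lc σ z (S z)) (y := y) fun T =>
    ((kz_smooth S Y T).congr fun z => inner_lc (VF.mdiff S z) (VF.mdiff Y z) (VF.mdiff T z)) y
  refine h1.congr_of_eventuallyEq ?_
  let e := trivializationAt E (TangentSpace 𝓘(ℝ, E) : M → Type _) y
  filter_upwards [hS] with z hz
  change e.continuousLinearMapAt ℝ z (lc σ z (e.symmL ℝ z v)) = _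
  rw [← hz]

theorem exists_lc [T2Space M] :
    ∃ cov : CovariantDerivative 𝓘(ℝ, E) E (TangentSpace 𝓘(ℝ, E) : M → Type _), IsLeviCivita cov :=
  ⟨lc, lc_smooth, lc_torsion, lc_metric⟩

end

end Vale.Agent.P231I
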