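import Vale.Agent.P231.Bd3.B6
import Vale.Agent.P231Z.Asm.Main
import Vale.Agent.P231Z.C.Main
import Vale.Agent.P231Z.D.Main
import Vale.Agent.P231W52.Conv
import Vale.Agent.P231I69.Geo

/-! Existence and uniqueness of geodesics and of the exponential map of the connection. -/

set_option maxSynthPendingDepth 3
set_option linter.unusedSectionVars false

namespace Vale.Agent.P231I

open Bundle Manifold Set Vale.Agent.P231Z Vale.Agent.P231Iso
open scoped ContDiff Manifold ENNReal

variable {E : Type*} [NormedAddCommGroup E] [NormedSpace ℝ E] [FiniteDimensional ℝ E]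
  {M : Type*} [MetricSpace M] [ChartedSpace E M] [IsManifold 𝓘(ℝ, E) ∞ M]
  [RiemannianBundle fun x : M => Tan E x]
  [IsContMDiffRiemannianBundle 𝓘(ℝ, E) ∞ E fun x : M => Tan E x]
  [IsRiemannianManifold 𝓘(ℝ, E) M] [CompactSpace M] [ConnectedSpace M] {cov : Conn E M}

theorem agree {cov' : Conn E M} (h : IsLeviCivita cov) (h' : IsLeviCivita cov') :
    Agree cov' cov := fun Y => funext fun x => lc_unique h' h (VF.mdiff Y x)

theorem geod_exu (h : IsLeviCivita cov) (x : M) (v : Tan E x) :
    ∃! c, IsGeod cov c ∧ Starts c x v := by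
  obtain ⟨e, he, -⟩ := P234.main_unconditional (E := E) (M := M)
  obtain ⟨c, h1, h2, -⟩ := (isExp_iff h).2 (P231W52.isExponential he) x v
  refine ⟨c, ⟨h1, h2⟩, fun d hd => ?_⟩
  rw [starts_iff] at h2 hd
  exact P231W52.geod_unique ((isGeod_iff h).1 hd.1) ((isGeod_iff h).1 h1)
    (hd.2.1.trans h2.1.symm) (hd.2.2.trans h2.2.symm)

theorem exp_exu (h : IsLeviCivita cov) : ∃! e, IsExp cov e := by
  obtain ⟨e, he, -⟩ := P234.main_unconditional (E := E) (M := M)
  exact ⟨e, (isExp_iff h).2 (P231W52.isExponential he),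
    fun e' he' => P231W52.isExponential_unique he ((isExp_iff h).1 he')⟩

theorem isExp_old (h : IsLeviCivita cov) {e : (x : M) → Tan E x → M} (he : IsExp cov e) :
    P234.IsExp e := by
  obtain ⟨e₀, h0, -⟩ := P234.main_unconditional (E := E) (M := M)
  rwa [P231W52.isExponential_unique h0 ((isExp_iff h).1 he)]

theorem exp_ray (h : IsLeviCivita cov) {e : (x : M) → Tan E x → M} (he : IsExp cov e) (x : M)
    (v : Tan E x) : IsGeod cov fun t : ℝ => e x (t • v) :=
  (isGeod_iff h).2 (P231W52.isGeodesic_ray (isExp_old h he) x v)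

end Vale.Agent.P231I
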